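import Vale.Agent.P246.Defs0
import Mathlib.LinearAlgebra.Dimension.OrzechProperty
import Mathlib.LinearAlgebra.Matrix.Rank

/-!
# P246, disproof, block ALG-ASM: exponent matrices of finite presentations of groups with
one-dimensional `Hom(G, ZMod p)`
-/

namespace Vale.Agent.P246.Dis.H538

open Vale.Agent.P246

/-- the vector of exponent sums of an element of the free group -/
def expo {n : ℕ} : FreeGroup (Fin n) →* Multiplicative (Fin n → ℤ) :=
  FreeGroup.lift fun i => Multiplicative.ofAdd (Pi.single i 1)

/-- the homomorphism `x_i ↦ v i` in terms of exponent sums -/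
theorem lift_eq_expo {n : ℕ} {R : Type} [CommRing R] (v : Fin n → R) (w : FreeGroup (Fin n)) :
    (FreeGroup.lift (fun i => Multiplicative.ofAdd (v i)) w).toAdd =
      ∑ i, ((expo w).toAdd i : R) * v i := by
  let f : FreeGroup (Fin n) →* Multiplicative R := FreeGroup.lift fun i => Multiplicative.ofAdd (v i)
  let h : Multiplicative (Fin n → ℤ) →* Multiplicative R := AddMonoidHom.toMultiplicative
    { toFun := fun u => ∑ i, (u i : R) * v i
      map_zero' := by simp
      map_add' := by
        intro a b
        rw [← Finset.sum_add_distrib]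
        exact Finset.sum_congr rfl fun i _ => by
          rw [Pi.add_apply]; push_cast; ring }
  have key : f = h.comp expo := by
    ext i
    simp only [f, h, expo, MonoidHom.comp_apply, FreeGroup.lift_apply_of]
    change v i = ∑ k, (((Pi.single i 1 : Fin n → ℤ) k : ℤ) : R) * v k
    rw [Finset.sum_eq_single i]
    · simp
    · intro k _ hk
      simp [Pi.single_eq_of_ne hk]
    · intro h
      exact absurd (Finset.mem_univ i) h
  exact congrArg (fun q : FreeGroup (Fin n) →* Multiplicative R => (q w).toAdd) key

variable {G : Type} [Group G]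

/-- the exponent matrix of a presentation -/
def expMat (Q : FinPresentation G) (R : Type) [CommRing R] : Matrix (Fin Q.rels) (Fin Q.gens) R :=
  Matrix.of fun j i => ((expo (Q.r j)).toAdd i : R)

/-- a vector in the kernel of the exponent matrix is a homomorphism on `G` -/
theorem exists_hom (Q : FinPresentation G) {R : Type} [CommRing R] (v : Fin Q.gens → R)
    (hv : (expMat Q R).mulVec v = 0) :
    ∃ ψ : G →* Multiplicative R, ∀ i, (ψ (Q.x i)).toAdd = v i := by
  let f : FreeGroup (Fin Q.gens) →* Multiplicative R :=
    FreeGroup.lift fun i => Multiplicative.ofAdd (v i)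
  have hker : (FreeGroup.lift Q.x).ker ≤ f.ker := by
    rw [Q.ker_eq]
    apply Subgroup.normalClosure_le_normal
    rintro _ ⟨j, rfl⟩
    have h1 := congrFun hv j
    have h2 : (f (Q.r j)).toAdd = 0 := by
      rw [lift_eq_expo]
      exact h1
    exact h2
  let ψ : G →* Multiplicative R := (FreeGroup.lift Q.x).liftOfSurjective Q.surj ⟨f, hker⟩
  refine ⟨ψ, fun i => ?_⟩
  have h3 : ψ (FreeGroup.lift Q.x (FreeGroup.of i)) = f (FreeGroup.of i) :=
    MonoidHom.liftOfRightInverse_comp_apply _ _ _ ⟨f, hker⟩ _
  rw [FreeGroup.lift_apply_of] at h3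
  rw [h3]
  simp [f]

/-- If `Hom(G, K)` is at most one-dimensional over the field `K`, then every finite presentation of
`G` has at most one generator more than relators, and in the case of equality the exponent matrix
has linearly independent rows over `K`. -/
theorem indep (Q : FinPresentation G) (K : Type) [Field K] (χ : G → K)
    (hχ : ∀ ψ : G →* Multiplicative K, ∃ c : K, ∀ g, (ψ g).toAdd = c * χ g) :
    Q.gens ≤ Q.rels + 1 ∧
      (Q.gens = Q.rels + 1 → LinearIndependent K (fun j => expMat Q K j)) := by
  let L := (expMat Q K).mulVecLin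
  have hk : Module.finrank K (LinearMap.ker L) ≤ 1 := by
    have h1 : LinearMap.ker L ≤ Submodule.span K {fun i => χ (Q.x i)} := by
      intro v hv
      obtain ⟨ψ, hψ⟩ := exists_hom Q v (LinearMap.mem_ker.1 hv)
      obtain ⟨c, hc⟩ := hχ ψ
      refine Submodule.mem_span_singleton.2 ⟨c, ?_⟩
      funext i
      rw [← hψ i, hc]
      rfl
    refine (Submodule.finrank_mono h1).trans ?_
    refine (finrank_span_le_card _).trans ?_
    simp
  have hr := L.finrank_range_add_finrank_ker
  rw [Module.finrank_fin_fun] at hr
  have hR : Module.finrank K (LinearMap.range L) ≤ Q.rels := by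
    refine (Submodule.finrank_le _).trans ?_
    rw [Module.finrank_fin_fun]
  refine ⟨by omega, fun he => ?_⟩
  rw [linearIndependent_iff_card_eq_finrank_span, Fintype.card_fin]
  have h2 : (expMat Q K).rank = Q.rels := by
    have : (expMat Q K).rank = Module.finrank K (LinearMap.range L) := rfl
    omega
  refine h2.symm.trans ?_
  rw [Matrix.rank_eq_finrank_span_row]
  rfl

end Vale.Agent.P246.Dis.H538
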