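import Vale.Agent.P246.Dis.H538.Euler

/-!
# P246, disproof, block ALG-ASM: the algebraic complex and the failure of the algebraic D(2)
property from a deficiency bound
-/

namespace Vale.Agent.P246.Dis.H538

open Vale.Agent.P246 Vale.Agent.P246.Q24 CategoryTheory Function

variable {G : Type} [Group G]

/-- the ranks of a three term complex -/
def rk (a b : ℕ) : ℕ → ℕ
  | 0 => 1
  | 1 => a
  | 2 => b
  | _ + 3 => 0

theorem rk_sum (a b : ℕ) :
    ∑ i ∈ Finset.range (2 + 1), (-1 : ℤ) ^ i * (rk a b i : ℤ) = 1 - a + b := by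
  simp [Finset.sum_range_succ, rk]
  ring

/-- bases of the modules of a three term complex -/
noncomputable def threeBasis (R : Type) [Ring R] (a b : ℕ) :
    ∀ i, Module.Basis (Fin (rk a b i)) R (threeX R a b i)
  | 0 => (Module.Basis.singleton (Fin 1) R : Module.Basis (Fin 1) R R)
  | 1 => Pi.basisFun R (Fin a)
  | 2 => Pi.basisFun R (Fin b)
  | _ + 3 => (Module.Basis.empty PUnit : Module.Basis (Fin 0) R PUnit)

/-- chain homotopy equivalent three term complexes have the same Euler characteristic -/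
theorem three_euler {a b a' b' : ℕ} (v : Fin a → ZG G) (w : Fin b → Fin a → ZG G)
    (h : ∀ j, ∑ i, w j i * v i = 0) (v' : Fin a' → ZG G) (w' : Fin b' → Fin a' → ZG G)
    (h' : ∀ j, ∑ i, w' j i * v' i = 0)
    (he : Cx.Equiv (threeTerm v w h) (threeTerm v' w' h')) :
    (1 : ℤ) - a + b = 1 - a' + b' := by
  rw [← rk_sum, ← rk_sum]
  exact euler_inv (threeTerm v w h : ChainComplex (ModuleCat.{0} (ZG G)) ℕ)
    (threeTerm v' w' h' : ChainComplex (ModuleCat.{0} (ZG G)) ℕ) (rk a b) (rk a' b')
    (threeBasis (ZG G) a b) (threeBasis (ZG G) a' b') 2 rfl rfl he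

section Sub

variable (Pr : FinPresentation G) {b : ℕ} (e : Fin b → Fin Pr.rels)

/-- the Fox complex with only the relators `r (e j)` -/
noncomputable def subC : Cx (ZG G) :=
  threeTerm (fun i => elt (Pr.x i) - 1) (fun j => foxWord Pr.x (Pr.r (e j)).toWord)
    (fun j => fox_rel Pr (e j))

/-- the same as a chain complex in the sense of Mathlib -/
noncomputable def subCC : ChainComplex (ModuleCat.{0} (ZG G)) ℕ := subC Pr e

theorem sub_d (i : ℕ) : (subCC Pr e).d (i + 1) i =
    threeD (fun i => elt (Pr.x i) - 1) (fun j => foxWord Pr.x (Pr.r (e j)).toWord) i :=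
  ChainComplex.of_d (threeX (ZG G) Pr.gens b)
    (threeD (fun i => elt (Pr.x i) - 1) (fun j => foxWord Pr.x (Pr.r (e j)).toWord)) i

theorem sub_d10 (u : Fin Pr.gens → ZG G) : ((subCC Pr e).d 1 0).hom u = foxD1 Pr u :=
  LinearMap.congr_fun (congrArg ModuleCat.Hom.hom (sub_d Pr e 0)) u

theorem sub_d21 (u : Fin b → ZG G) : ((subCC Pr e).d 2 1).hom u =
    Fintype.linearCombination (ZG G) (fun j => foxWord Pr.x (Pr.r (e j)).toWord) u :=
  LinearMap.congr_fun (congrArg ModuleCat.Hom.hom (sub_d Pr e 1)) u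

theorem sub_subsingleton (i : ℕ) : Subsingleton ((subCC Pr e).X (i + 3)) :=
  inferInstanceAs (Subsingleton PUnit)

theorem sub_free : ∀ i, Module.Free (ZG G) ((subCC Pr e).X i)
  | 0 => inferInstanceAs (Module.Free (ZG G) (ZG G))
  | 1 => inferInstanceAs (Module.Free (ZG G) (Fin Pr.gens → ZG G))
  | 2 => inferInstanceAs (Module.Free (ZG G) (Fin b → ZG G))
  | _ + 3 => inferInstanceAs (Module.Free (ZG G) PUnit)

theorem sub_finite : ∀ i, Module.Finite (ZG G) ((subCC Pr e).X i)
  | 0 => inferInstanceAs (Module.Finite (ZG G) (ZG G))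
  | 1 => inferInstanceAs (Module.Finite (ZG G) (Fin Pr.gens → ZG G))
  | 2 => inferInstanceAs (Module.Finite (ZG G) (Fin b → ZG G))
  | _ + 3 => inferInstanceAs (Module.Finite (ZG G) PUnit)

variable {e}

/-- a relator whose coefficient in a relation between the Fox derivatives is a unit can be
omitted -/
theorem sub_exact (he : Function.Injective e) (j0 : Fin Pr.rels) (hj : ∀ j, j ≠ j0 → ∃ i, e i = j)
    (β : Fin Pr.rels → ZG G) (hβ : foxD2 Pr β = 0) (hu : IsUnit (β j0))
    (u : Fin Pr.gens → ZG G) (h : foxD1 Pr u = 0) :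
    ∃ t : Fin b → ZG G,
      Fintype.linearCombination (ZG G) (fun j => foxWord Pr.x (Pr.r (e j)).toWord) t = u := by
  obtain ⟨s, hs⟩ := fox_exact Pr u h
  obtain ⟨c, hc⟩ := hu
  let s' : Fin Pr.rels → ZG G := s - (s j0 * ((c⁻¹ : (ZG G)ˣ) : ZG G)) • β
  have h0 : s' j0 = 0 := by
    change s j0 - (s j0 * ((c⁻¹ : (ZG G)ˣ) : ZG G)) * β j0 = 0
    rw [← hc, mul_assoc, Units.inv_mul, mul_one, sub_self]
  have h1 : foxD2 Pr s' = u := by
    rw [map_sub, map_smul, hβ, smul_zero, sub_zero, hs]
  refine ⟨fun i => s' (e i), ?_⟩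
  rw [← h1, foxD2, Fintype.linearCombination_apply, Fintype.linearCombination_apply]
  classical
  rw [← Finset.sum_image (s := Finset.univ) (g := e)
    (f := fun j => s' j • foxWord Pr.x (Pr.r j).toWord) (fun x _ y _ hxy => he hxy)]
  refine Finset.sum_subset (Finset.subset_univ _) fun j _ hjm => ?_
  have : j = j0 := by
    by_contra hne
    obtain ⟨i, rfl⟩ := hj j hne
    exact hjm (Finset.mem_image_of_mem _ (Finset.mem_univ _))
  rw [this, h0, zero_smul]

theorem d2Data_sub (he : Function.Injective e) (j0 : Fin Pr.rels) (hj : ∀ j, j ≠ j0 → ∃ i, e i = j)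
    (β : Fin Pr.rels → ZG G) (hβ : foxD2 Pr β = 0) (hu : IsUnit (β j0)) :
    D2Data G (subCC Pr e) where
  free := sub_free Pr e
  finite := sub_finite Pr e
  bounded := ⟨2, fun i hi => by
    obtain ⟨j, rfl⟩ : ∃ j, i = j + 3 := ⟨i - 3, by omega⟩
    exact sub_subsingleton Pr e j⟩
  homology_zero := by
    refine ⟨(aug G).toAddMonoidHom, fun k => ⟨(k : ZG G), map_intCast (aug G) k⟩, ?_, ?_⟩
    · intro g x
      have key : ∀ x : ZG G, aug G (elt g * x) = aug G x := by
        intro x
        rw [map_mul, aug_elt, one_mul]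
      exact key x
    · intro x
      refine (fox_aug Pr x).trans ?_
      constructor
      · rintro ⟨u, hu⟩
        exact ⟨u, (sub_d10 Pr e u).trans hu⟩
      · rintro ⟨u, hu⟩
        exact ⟨u, (sub_d10 Pr e u).symm.trans hu⟩
  homology_one := by
    rw [exactAt_succ_iff]
    intro x hx
    obtain ⟨t, ht⟩ := sub_exact Pr he j0 hj β hβ hu x ((sub_d10 Pr e x).symm.trans hx)
    exact ⟨t, (sub_d21 Pr e t).trans ht⟩
  homology_high := by
    intro i hi
    obtain ⟨j, rfl⟩ : ∃ j, i = j + 3 := ⟨i - 3, by omega⟩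
    rw [exactAt_succ_iff]
    intro x _
    have := sub_subsingleton Pr e j
    exact ⟨0, Subsingleton.elim _ _⟩
  cohomology_three := by
    intro M _ _ _ φ _
    refine ⟨0, fun x => ?_⟩
    have := sub_subsingleton Pr e 0
    rw [Subsingleton.elim x 0, map_zero]
    rfl

end Sub

/-- **Algebraic assembly, general form.** If the Fox derivatives of the relators of a finite
presentation `Pr` satisfy a relation `∑ β j ∂(r j) = 0` in which some coefficient is a unit, and no
finite presentation of `G` has `gens - rels = Pr.gens - Pr.rels + 1`, then `G` does not have the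
algebraic D(2) property. -/
theorem not_algebraic (Pr : FinPresentation G) (β : Fin Pr.rels → ZG G) (j0 : Fin Pr.rels)
    (hβ : foxD2 Pr β = 0) (hu : IsUnit (β j0))
    (hG : ∀ Q : FinPresentation G, (Q.gens : ℤ) - Q.rels ≠ Pr.gens - Pr.rels + 1) :
    ∃ C : Cx (ZG G), IsD2Complex C ∧ ∀ Q : FinPresentation G, ¬ C.Equiv (foxComplex Q) := by
  obtain ⟨b, hb⟩ : ∃ b, Pr.rels = b + 1 := ⟨Pr.rels - 1, by have := j0.2; omega⟩
  let e : Fin b → Fin Pr.rels := fun i => Fin.cast hb.symm ((Fin.cast hb j0).succAbove i)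
  have he : Function.Injective e := fun x y hxy =>
    Fin.succAbove_right_injective (Fin.cast_injective hb.symm hxy)
  have hj : ∀ j, j ≠ j0 → ∃ i, e i = j := by
    intro j hne
    have h1 : Fin.cast hb j ≠ Fin.cast hb j0 := fun h => hne (Fin.cast_injective hb h)
    obtain ⟨i, hi⟩ := Fin.exists_succAbove_eq h1
    exact ⟨i, by simp [e, hi]⟩
  refine ⟨subC Pr e, (d2Data_sub Pr he j0 hj β hβ hu).isD2, fun Q h => hG Q ?_⟩
  have := three_euler _ _ _ _ _ _ h
  rw [hb]
  push_cast
  linarith

/-- The algebraic D(2) property fails for a group with a balanced presentation as above all of whose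
finite presentations have at least as many relators as generators. -/
theorem not_algebraicD2Property (Pr : FinPresentation G) (β : Fin Pr.rels → ZG G)
    (j0 : Fin Pr.rels) (hβ : foxD2 Pr β = 0) (hu : IsUnit (β j0)) (hbal : Pr.gens = Pr.rels)
    (hG : ∀ Q : FinPresentation G, Q.gens ≠ Q.rels + 1) : ¬ AlgebraicD2Property G := by
  intro hA
  obtain ⟨C, hC, hQ⟩ := not_algebraic Pr β j0 hβ hu (fun Q h => hG Q (by
    rw [hbal] at h
    have : (Q.gens : ℤ) = Q.rels + 1 := by linarith
    exact_mod_cast this))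
  obtain ⟨Q, h⟩ := hA C hC
  exact hQ Q h

end Vale.Agent.P246.Dis.H538
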