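import Vale.Agent.P246.Q24.A

/-!
# P246, disproof, block ALG-ASM: the Euler characteristic is a chain homotopy invariant
-/

namespace Vale.Agent.P246.Dis.H538

open Vale.Agent.P246 Vale.Agent.P246.Q24 CategoryTheory Function

variable {G : Type} [Group G]

/-- `ℤ` with the trivial action of `G` -/
def Tr (_ : Type) : Type := ℤ

instance : AddCommGroup (Tr G) := inferInstanceAs (AddCommGroup ℤ)

instance : Module.Free ℤ (Tr G) := inferInstanceAs (Module.Free ℤ ℤ)

instance : Module.Finite ℤ (Tr G) := inferInstanceAs (Module.Finite ℤ ℤ)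

noncomputable instance : Module (ZG G) (Tr G) := Module.compHom ℤ (aug G)

/-- the dual of `M` -/
abbrev Du (G : Type) [Group G] (M : Type) [AddCommGroup M] [Module (ZG G) M] : Type :=
  M →ₗ[ZG G] Tr G

section

variable {M N K : Type} [AddCommGroup M] [Module (ZG G) M] [AddCommGroup N] [Module (ZG G) N]
  [AddCommGroup K] [Module (ZG G) K]

/-- the dual map -/
noncomputable def du (f : M →ₗ[ZG G] N) : Du G N →ₗ[ℤ] Du G M :=
  AddMonoidHom.toIntLinearMap
    { toFun := fun φ => φ.comp f
      map_zero' := LinearMap.zero_comp f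
      map_add' := fun a b => LinearMap.add_comp f b a }

theorem du_apply (f : M →ₗ[ZG G] N) (φ : Du G N) : du f φ = φ.comp f := rfl

theorem du_comp (g : N →ₗ[ZG G] K) (f : M →ₗ[ZG G] N) : du (g.comp f) = (du f).comp (du g) := rfl

theorem du_id : du (LinearMap.id : M →ₗ[ZG G] M) = LinearMap.id := rfl

theorem du_add (f g : M →ₗ[ZG G] N) : du (f + g) = du f + du g := by
  ext φ
  simp [du_apply, LinearMap.comp_add]

theorem du_zero : du (0 : M →ₗ[ZG G] N) = 0 := by
  ext φ
  simp [du_apply]

/-- the dual of a free module -/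
noncomputable def duEquiv {ι : Type} (b : Module.Basis ι (ZG G) M) :
    (ι → Tr G) ≃ₗ[ℤ] Du G M := b.constr ℤ

theorem du_free {n : ℕ} (b : Module.Basis (Fin n) (ZG G) M) : Module.Free ℤ (Du G M) :=
  Module.Free.of_equiv (duEquiv b)

theorem du_fin {n : ℕ} (b : Module.Basis (Fin n) (ZG G) M) : Module.Finite ℤ (Du G M) :=
  Module.Finite.equiv (duEquiv b)

theorem du_finrank {n : ℕ} (b : Module.Basis (Fin n) (ZG G) M) :
    Module.finrank ℤ (Du G M) = n := by
  rw [← (duEquiv b).finrank_eq]
  have h : Module.finrank ℤ (Tr G) = 1 := Module.finrank_self ℤ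
  rw [Module.finrank_pi_fintype]
  simp [h]

end

/-- The alternating sum of the ranks of a bounded complex of finitely generated free modules over
`ℤ[G]` is a chain homotopy invariant. -/
theorem euler_inv (C D : ChainComplex (ModuleCat.{0} (ZG G)) ℕ) (n m : ℕ → ℕ)
    (bC : ∀ i, Module.Basis (Fin (n i)) (ZG G) (C.X i))
    (bD : ∀ i, Module.Basis (Fin (m i)) (ZG G) (D.X i)) (N : ℕ)
    (hn : n (N + 1) = 0) (hm : m (N + 1) = 0) (h : Nonempty (HomotopyEquiv C D)) :
    ∑ i ∈ Finset.range (N + 1), (-1 : ℤ) ^ i * (n i : ℤ) =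
      ∑ i ∈ Finset.range (N + 1), (-1 : ℤ) ^ i * (m i : ℤ) := by
  obtain ⟨e⟩ := h
  have fC : ∀ i, Module.Free ℤ (Du G (C.X i)) := fun i => du_free (bC i)
  have fC' : ∀ i, Module.Finite ℤ (Du G (C.X i)) := fun i => du_fin (bC i)
  have fD : ∀ i, Module.Free ℤ (Du G (D.X i)) := fun i => du_free (bD i)
  have fD' : ∀ i, Module.Finite ℤ (Du G (D.X i)) := fun i => du_fin (bD i)
  -- one side
  have key : ∀ (K L : ChainComplex (ModuleCat.{0} (ZG G)) ℕ) (k : ℕ → ℕ)
      (bK : ∀ i, Module.Basis (Fin (k i)) (ZG G) (K.X i)) (hk : k (N + 1) = 0)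
      (f : K ⟶ L) (g : L ⟶ K) (H : Homotopy (f ≫ g) (𝟙 K)),
      ∑ i ∈ Finset.range (N + 1), (-1 : ℤ) ^ i * (k i : ℤ) =
        ∑ i ∈ Finset.range (N + 1),
          (-1 : ℤ) ^ i * LinearMap.trace ℤ _ (du ((g.f i).hom.comp (f.f i).hom)) := by
    intro K L k bK hk f g H
    have fK : ∀ i, Module.Free ℤ (Du G (K.X i)) := fun i => du_free (bK i)
    have fK' : ∀ i, Module.Finite ℤ (Du G (K.X i)) := fun i => du_fin (bK i)
    -- the traces of the homotopy
    let a : ℕ → ℤ := fun i =>
      LinearMap.trace ℤ _ (du ((K.d (i + 1) i).hom.comp (H.hom i (i + 1)).hom))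
    have ha : ∀ i, LinearMap.trace ℤ _
        (du ((H.hom i (i + 1)).hom.comp (K.d (i + 1) i).hom)) = a i := by
      intro i
      rw [du_comp]
      change _ = LinearMap.trace ℤ _ (du ((K.d (i + 1) i).hom.comp (H.hom i (i + 1)).hom))
      rw [du_comp]
      exact LinearMap.trace_comp_comm' _ _
    have h0 : LinearMap.trace ℤ _ (du ((g.f 0).hom.comp (f.f 0).hom)) = a 0 + k 0 := by
      have h1 := H.comm 0
      rw [Homotopy.dNext_zero_chainComplex, Homotopy.prevD_chainComplex, zero_add] at h1
      have h2 : (g.f 0).hom.comp (f.f 0).hom =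
          (K.d 1 0).hom.comp (H.hom 0 1).hom + LinearMap.id := by
        have h3 := congrArg ModuleCat.Hom.hom h1
        exact h3
      rw [h2, du_add, map_add, du_id, LinearMap.trace_id, du_finrank (bK 0)]
    have hs : ∀ i, LinearMap.trace ℤ _ (du ((g.f (i + 1)).hom.comp (f.f (i + 1)).hom)) =
        a i + a (i + 1) + k (i + 1) := by
      intro i
      have h1 := H.comm (i + 1)
      rw [Homotopy.dNext_succ_chainComplex, Homotopy.prevD_chainComplex] at h1
      have h2 : (g.f (i + 1)).hom.comp (f.f (i + 1)).hom =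
          (H.hom i (i + 1)).hom.comp (K.d (i + 1) i).hom +
            (K.d (i + 2) (i + 1)).hom.comp (H.hom (i + 1) (i + 2)).hom + LinearMap.id := by
        have h3 := congrArg ModuleCat.Hom.hom h1
        exact h3
      rw [h2, du_add, du_add, map_add, map_add, du_id, LinearMap.trace_id, du_finrank (bK (i + 1)),
        ha i]
    have hN : a N = 0 := by
      have h1 : Subsingleton (K.X (N + 1)) := by
        have := bK (N + 1)
        rw [hk] at this
        exact this.repr.toEquiv.subsingleton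
      have h2 : (K.d (N + 1) N).hom.comp (H.hom N (N + 1)).hom = 0 := by
        have h3 : (H.hom N (N + 1)).hom = 0 := by
          ext x
          exact Subsingleton.elim _ _
        rw [h3, LinearMap.comp_zero]
      change LinearMap.trace ℤ _ (du ((K.d (N + 1) N).hom.comp (H.hom N (N + 1)).hom)) = 0
      rw [h2, du_zero, map_zero]
    have hsum : ∀ j, ∑ i ∈ Finset.range (j + 1),
        (-1 : ℤ) ^ i * LinearMap.trace ℤ _ (du ((g.f i).hom.comp (f.f i).hom)) =
        ∑ i ∈ Finset.range (j + 1), (-1 : ℤ) ^ i * (k i : ℤ) + (-1) ^ j * a j := by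
      intro j
      induction j with
      | zero => simp [h0]; ring
      | succ j ih =>
        rw [Finset.sum_range_succ, ih, Finset.sum_range_succ _ (j + 1), hs j]
        ring
    rw [hsum N, hN, mul_zero, add_zero]
  rw [key C D n bC hn e.hom e.inv e.homotopyHomInvId, key D C m bD hm e.inv e.hom e.homotopyInvHomId]
  apply Finset.sum_congr rfl
  intro i _
  congr 1
  rw [du_comp, du_comp]
  exact LinearMap.trace_comp_comm' _ _

end Vale.Agent.P246.Dis.H538
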